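import Vale.Agent.P224.R2.H728.Nd

/-!
The near law for single dimensions, mean normal at most 1/50: parameters, cells and the kernel
check.
-/

namespace Vale.Agent.P224.R2.H179

open Vale.Agent.P224.R2.H728

set_option maxRecDepth 100000

/-- the parameters for `m = 17` -/
def parB17 : ParQ :=
  ⟨17, 9 / 50, 1801 / 10000, 251 / 500, 1 / 50, 7 / 98260, 9 / 50, 1 / 20000, 1 / 20000, 2463 / 10000, 17 / 1000, 6 / 125, 99 / 50000⟩

/-- the law for `m = 17` -/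
def lawsB17 : List LawQ :=
  [⟨58 / 125, 213 / 200, 76 / 639, 391 / 5000, 1 / 2000, 1 / 20000, 1, 1⟩]

/-- the boxes of the mean normal law -/
def elsB17 : List (ElQ × ℚ × ℚ) := [
  (⟨6 / 125, 53 / 20000, 23993 / 10000, 4463 / 5000⟩, 13993 / 10000, 291 / 25000),
  (⟨6 / 125, 3 / 625, 23993 / 10000, 8873 / 10000⟩, 13993 / 10000, 291 / 25000),
  (⟨6 / 125, 99 / 10000, 23993 / 10000, 4373 / 5000⟩, 13993 / 10000, 233 / 20000),
  (⟨143 / 1000, 109 / 20000, 15211 / 5000, 8247 / 10000⟩, 10211 / 5000, 1753 / 50000)]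

/-- the cells -/
def colsB17 : List ColQ := [
  ⟨6 / 125, [
    ⟨53 / 20000, 13993 / 10000, 51 / 12500, 713 / 100000, 0, 0, true⟩,
    ⟨3 / 625, 13993 / 10000, 549 / 100000, 649 / 50000, 0, 1, true⟩,
    ⟨99 / 10000, 13993 / 10000, 197 / 25000, 1 / 50, 0, 2, true⟩,
    ⟨1793 / 100000, 13993 / 10000, 53 / 5000, 1 / 50, 0, 0, false⟩]⟩,
  ⟨143 / 1000, [
    ⟨109 / 20000, 10211 / 5000, 117 / 20000, 1 / 50, 0, 3, true⟩,
    ⟨23 / 4000, 10211 / 5000, 3 / 500, 1 / 50, 0, 0, false⟩,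
    ⟨173 / 20000, 10211 / 5000, 23 / 3125, 1 / 50, 0, 0, false⟩,
    ⟨1991 / 100000, 10211 / 5000, 1117 / 100000, 1 / 50, 0, 0, false⟩]⟩,
  ⟨247 / 1000, [
    ⟨453 / 20000, 13447 / 5000, 1191 / 100000, 1 / 50, 0, 0, false⟩]⟩]

theorem okB17 : nearOK parB17 lawsB17 (elsB17.map Prod.fst) colsB17 = true := by decide +kernel

theorem elB17 : e7All 17 elsB17 = true := by decide +kernel

/-- the parameters for `m = 18` -/
def parB18 : ParQ :=
  ⟨18, 359 / 2000, 449 / 2500, 2501 / 5000, 1 / 50, 0, 9 / 50, 1 / 20000, 1 / 20000, 473 / 2000, 139 / 10000, -1, -1⟩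

/-- the law for `m = 18` -/
def lawsB18 : List LawQ :=
  [⟨491 / 1000, 1147 / 1000, 320 / 2831, 811 / 10000, 1 / 2000, 1 / 20000, 1, 1⟩]

/-- the boxes of the mean normal law -/
def elsB18 : List (ElQ × ℚ × ℚ) := [
  (⟨123 / 1000, 119 / 20000, 29507 / 10000, 8449 / 10000⟩, 19507 / 10000, 1461 / 50000)]

/-- the cells -/
def colsB18 : List ColQ := [
  ⟨123 / 1000, [
    ⟨119 / 20000, 19507 / 10000, 29 / 5000, 1 / 50, 0, 0, true⟩,
    ⟨17 / 2000, 19507 / 10000, 347 / 50000, 1 / 50, 0, 0, false⟩,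
    ⟨199 / 12500, 19507 / 10000, 949 / 100000, 1 / 50, 0, 0, false⟩]⟩,
  ⟨237 / 1000, [
    ⟨1829 / 100000, 3357 / 1250, 1017 / 100000, 1 / 50, 0, 0, false⟩]⟩]

theorem okB18 : nearOK parB18 lawsB18 (elsB18.map Prod.fst) colsB18 = true := by decide +kernel

theorem elB18 : e7All 18 elsB18 = true := by decide +kernel

/-- the parameters for `m = 19` -/
def parB19 : ParQ :=
  ⟨19, 447 / 2500, 1789 / 10000, 4987 / 10000, 1 / 50, 7 / 137180, 9 / 50, 1 / 20000, 1 / 20000, 1167 / 5000, 1753 / 100000, 21 / 500, 141 / 100000⟩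

/-- the law for `m = 19` -/
def lawsB19 : List LawQ :=
  [⟨519 / 1000, 617 / 500, 7 / 65, 169 / 2000, 1 / 2000, 1 / 20000, 1, 1⟩]

/-- the boxes of the mean normal law -/
def elsB19 : List (ElQ × ℚ × ℚ) := [
  (⟨21 / 500, 29 / 10000, 23859 / 10000, 9017 / 10000⟩, 13859 / 10000, 241 / 25000),
  (⟨21 / 500, 77 / 10000, 23859 / 10000, 8901 / 10000⟩, 13859 / 10000, 241 / 25000),
  (⟨139 / 1000, 109 / 20000, 30953 / 10000, 837 / 1000⟩, 20953 / 10000, 1611 / 50000)]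

/-- the cells -/
def colsB19 : List ColQ := [
  ⟨21 / 500, [
    ⟨29 / 10000, 13859 / 10000, 193 / 50000, 24 / 3125, 0, 0, true⟩,
    ⟨77 / 10000, 13859 / 10000, 629 / 100000, 1 / 50, 0, 1, true⟩,
    ⟨1837 / 100000, 13859 / 10000, 971 / 100000, 1 / 50, 0, 0, false⟩]⟩,
  ⟨139 / 1000, [
    ⟨109 / 20000, 20953 / 10000, 529 / 100000, 1 / 50, 0, 2, true⟩,
    ⟨119 / 20000, 20953 / 10000, 553 / 100000, 1 / 50, 0, 0, false⟩,
    ⟨57 / 5000, 20953 / 10000, 153 / 20000, 1 / 50, 0, 0, false⟩,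
    ⟨511 / 25000, 20953 / 10000, 32 / 3125, 1 / 50, 0, 0, false⟩]⟩,
  ⟨117 / 500, [
    ⟨287 / 12500, 27231 / 10000, 543 / 50000, 1 / 50, 0, 0, false⟩]⟩]

theorem okB19 : nearOK parB19 lawsB19 (elsB19.map Prod.fst) colsB19 = true := by decide +kernel

theorem elB19 : e7All 19 elsB19 = true := by decide +kernel

/-- the parameters for `m = 20` -/
def parB20 : ParQ :=
  ⟨20, 89 / 500, 1781 / 10000, 1243 / 2500, 1 / 50, 0, 9 / 50, 1 / 20000, 1 / 20000, 563 / 2500, 1521 / 100000, -1, -1⟩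

/-- the law for `m = 20` -/
def lawsB20 : List LawQ :=
  [⟨273 / 500, 1327 / 1000, 352 / 3423, 221 / 2500, 1 / 2000, 1 / 20000, 1, 1⟩]

/-- the boxes of the mean normal law -/
def elsB20 : List (ElQ × ℚ × ℚ) := [
  (⟨1 / 8, 117 / 20000, 6071 / 2000, 4257 / 5000⟩, 4071 / 2000, 1409 / 50000)]

/-- the cells -/
def colsB20 : List ColQ := [
  ⟨1 / 8, [
    ⟨117 / 20000, 4071 / 2000, 523 / 100000, 1 / 50, 0, 0, true⟩,
    ⟨87 / 10000, 4071 / 2000, 319 / 50000, 1 / 50, 0, 0, false⟩,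
    ⟨873 / 50000, 4071 / 2000, 113 / 12500, 1 / 50, 0, 0, false⟩]⟩,
  ⟨113 / 500, [
    ⟨1973 / 100000, 27247 / 10000, 961 / 100000, 1 / 50, 0, 0, false⟩]⟩]

theorem okB20 : nearOK parB20 lawsB20 (elsB20.map Prod.fst) colsB20 = true := by decide +kernel

theorem elB20 : e7All 20 elsB20 = true := by decide +kernel

/-- the parameters for `m = 21` -/
def parB21 : ParQ :=
  ⟨21, 1771 / 10000, 443 / 2500, 62 / 125, 1 / 50, 1 / 26460, 9 / 50, 1 / 20000, 1 / 20000, 1113 / 5000, 1829 / 100000, 37 / 1000, 21 / 20000⟩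

/-- the law for `m = 21` -/
def lawsB21 : List LawQ :=
  [⟨571 / 1000, 1423 / 1000, 92 / 935, 463 / 5000, 1 / 2000, 1 / 20000, 1, 1⟩]

/-- the boxes of the mean normal law -/
def elsB21 : List (ElQ × ℚ × ℚ) := [
  (⟨37 / 1000, 2 / 625, 949 / 400, 9091 / 10000⟩, 549 / 400, 101 / 12500),
  (⟨37 / 1000, 1907 / 100000, 949 / 400, 1741 / 2000⟩, 549 / 400, 101 / 12500),
  (⟨27 / 200, 27 / 5000, 1964 / 625, 8479 / 10000⟩, 1339 / 625, 119 / 4000)]

/-- the cells -/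
def colsB21 : List ColQ := [
  ⟨37 / 1000, [
    ⟨2 / 625, 549 / 400, 37 / 10000, 209 / 25000, 0, 0, true⟩,
    ⟨1907 / 100000, 549 / 400, 113 / 12500, 1 / 50, 0, 1, true⟩]⟩,
  ⟨27 / 200, [
    ⟨27 / 5000, 1339 / 625, 481 / 100000, 1 / 50, 0, 2, true⟩,
    ⟨11 / 2000, 1339 / 625, 243 / 50000, 1 / 50, 0, 0, false⟩,
    ⟨33 / 5000, 1339 / 625, 133 / 25000, 1 / 50, 0, 0, false⟩,
    ⟨393 / 20000, 1339 / 625, 917 / 100000, 1 / 50, 0, 0, false⟩,
    ⟨1061 / 50000, 1339 / 625, 953 / 100000, 1 / 50, 0, 0, false⟩]⟩,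
  ⟨223 / 1000, [
    ⟨1181 / 50000, 2757 / 1000, 503 / 50000, 1 / 50, 0, 0, false⟩]⟩]

theorem okB21 : nearOK parB21 lawsB21 (elsB21.map Prod.fst) colsB21 = true := by decide +kernel

theorem elB21 : e7All 21 elsB21 = true := by decide +kernel

/-- the parameters for `m = 22` -/
def parB22 : ParQ :=
  ⟨22, 1761 / 10000, 881 / 5000, 1237 / 2500, 1 / 50, 0, 9 / 50, 1 / 20000, 1 / 20000, 539 / 2500, 1653 / 100000, -1, -1⟩

/-- the law for `m = 22` -/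
def lawsB22 : List LawQ :=
  [⟨149 / 250, 1523 / 1000, 128 / 1357, 971 / 10000, 3 / 5000, 1 / 20000, 1, 1⟩]

/-- the boxes of the mean normal law -/
def elsB22 : List (ElQ × ℚ × ℚ) := [
  (⟨31 / 250, 29 / 5000, 3097 / 1000, 859 / 1000⟩, 2097 / 1000, 1333 / 50000)]

/-- the cells -/
def colsB22 : List ColQ := [
  ⟨31 / 250, [
    ⟨29 / 5000, 2097 / 1000, 239 / 50000, 1 / 50, 0, 0, true⟩,
    ⟨89 / 10000, 2097 / 1000, 37 / 6250, 1 / 50, 0, 0, false⟩,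
    ⟨947 / 50000, 2097 / 1000, 863 / 100000, 1 / 50, 0, 0, false⟩]⟩,
  ⟨27 / 125, [
    ⟨529 / 25000, 27591 / 10000, 57 / 6250, 1 / 50, 0, 0, false⟩]⟩]

theorem okB22 : nearOK parB22 lawsB22 (elsB22.map Prod.fst) colsB22 = true := by decide +kernel

theorem elB22 : e7All 22 elsB22 = true := by decide +kernel

end Vale.Agent.P224.R2.H179
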