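import Vale.Agent.P224.R2.H728.Nd

/-!
The near law for single dimensions, mean normal at most 1/50: parameters, cells and the kernel
check.
-/

namespace Vale.Agent.P224.R2.H179

open Vale.Agent.P224.R2.H728

set_option maxRecDepth 100000

/-- the parameters for `m = 23` -/
def parB23 : ParQ :=
  ⟨23, 1751 / 10000, 219 / 1250, 2469 / 5000, 1 / 50, 7 / 243340, 9 / 50, 1 / 20000, 1 / 20000, 1067 / 5000, 1919 / 100000, 17 / 500, 81 / 100000⟩

/-- the law for `m = 23` -/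
def lawsB23 : List LawQ :=
  [⟨621 / 1000, 13 / 8, 25 / 276, 127 / 1250, 1 / 1250, 1 / 20000, 1, 1⟩]

/-- the boxes of the mean normal law -/
def elsB23 : List (ElQ × ℚ × ℚ) := [
  (⟨17 / 500, 67 / 20000, 1482 / 625, 572 / 625⟩, 857 / 625, 709 / 100000),
  (⟨17 / 500, 997 / 50000, 1482 / 625, 8753 / 10000⟩, 857 / 625, 71 / 10000),
  (⟨131 / 1000, 7 / 1250, 15919 / 5000, 8569 / 10000⟩, 10919 / 5000, 1379 / 50000)]

/-- the cells -/
def colsB23 : List ColQ := [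
  ⟨17 / 500, [
    ⟨67 / 20000, 857 / 625, 349 / 100000, 217 / 25000, 0, 0, true⟩,
    ⟨997 / 50000, 857 / 625, 17 / 2000, 1 / 50, 0, 1, true⟩]⟩,
  ⟨131 / 1000, [
    ⟨7 / 1250, 10919 / 5000, 451 / 100000, 1 / 50, 0, 2, true⟩,
    ⟨33 / 4000, 10919 / 5000, 547 / 100000, 1 / 50, 0, 0, false⟩,
    ⟨277 / 12500, 10919 / 5000, 897 / 100000, 1 / 50, 0, 0, false⟩]⟩,
  ⟨107 / 500, [
    ⟨2449 / 100000, 27941 / 10000, 471 / 50000, 1 / 50, 0, 0, false⟩]⟩]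

theorem okB23 : nearOK parB23 lawsB23 (elsB23.map Prod.fst) colsB23 = true := by decide +kernel

theorem elB23 : e7All 23 elsB23 = true := by decide +kernel

/-- the parameters for `m = 24` -/
def parB24 : ParQ :=
  ⟨24, 87 / 500, 1741 / 10000, 308 / 625, 1 / 50, 0, 9 / 50, 1 / 20000, 1 / 20000, 83 / 400, 357 / 20000, -1, -1⟩

/-- the law for `m = 24` -/
def lawsB24 : List LawQ :=
  [⟨161 / 250, 1733 / 1000, 416 / 4775, 1067 / 10000, 3 / 2500, 1 / 20000, 1, 1⟩]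

/-- the boxes of the mean normal law -/
def elsB24 : List (ElQ × ℚ × ℚ) := [
  (⟨3 / 25, 23 / 4000, 31321 / 10000, 217 / 250⟩, 21321 / 10000, 2469 / 100000)]

/-- the cells -/
def colsB24 : List ColQ := [
  ⟨3 / 25, [
    ⟨23 / 4000, 21321 / 10000, 439 / 100000, 1 / 50, 0, 0, true⟩,
    ⟨167 / 20000, 21321 / 10000, 529 / 100000, 1 / 50, 0, 0, false⟩,
    ⟨509 / 25000, 21321 / 10000, 413 / 50000, 1 / 50, 0, 0, false⟩]⟩,
  ⟨26 / 125, [
    ⟨1131 / 50000, 1399 / 500, 871 / 100000, 1 / 50, 0, 0, false⟩]⟩]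

theorem okB24 : nearOK parB24 lawsB24 (elsB24.map Prod.fst) colsB24 = true := by decide +kernel

theorem elB24 : e7All 24 elsB24 = true := by decide +kernel

/-- the parameters for `m = 25` -/
def parB25 : ParQ :=
  ⟨25, 1729 / 10000, 173 / 1000, 4919 / 10000, 1 / 50, 7 / 312500, 9 / 50, 1 / 20000, 1 / 20000, 257 / 1250, 2019 / 100000, 31 / 1000, 13 / 20000⟩

/-- the law for `m = 25` -/
def lawsB25 : List LawQ :=
  [⟨667 / 1000, 1841 / 1000, 12 / 143, 279 / 2500, 9 / 5000, 1 / 20000, 1, 1⟩]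

/-- the boxes of the mean normal law -/
def elsB25 : List (ElQ × ℚ × ℚ) := [
  (⟨31 / 1000, 17 / 5000, 23653 / 10000, 9207 / 10000⟩, 13653 / 10000, 31 / 5000),
  (⟨31 / 1000, 2091 / 100000, 23653 / 10000, 879 / 1000⟩, 13653 / 10000, 621 / 100000),
  (⟨123 / 1000, 7 / 1250, 31879 / 10000, 8687 / 10000⟩, 21879 / 10000, 2481 / 100000)]

/-- the cells -/
def colsB25 : List ColQ := [
  ⟨31 / 1000, [
    ⟨17 / 5000, 13653 / 10000, 163 / 50000, 437 / 50000, 0, 0, true⟩,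
    ⟨2091 / 100000, 13653 / 10000, 807 / 100000, 1 / 50, 0, 1, true⟩]⟩,
  ⟨123 / 1000, [
    ⟨7 / 1250, 21879 / 10000, 209 / 50000, 1 / 50, 0, 2, true⟩,
    ⟨149 / 20000, 21879 / 10000, 241 / 50000, 1 / 50, 0, 0, false⟩,
    ⟨231 / 10000, 21879 / 10000, 53 / 6250, 1 / 50, 0, 0, false⟩]⟩,
  ⟨103 / 500, [
    ⟨2551 / 100000, 14147 / 5000, 891 / 100000, 1 / 50, 0, 0, false⟩]⟩]

theorem okB25 : nearOK parB25 lawsB25 (elsB25.map Prod.fst) colsB25 = true := by decide +kernel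

theorem elB25 : e7All 25 elsB25 = true := by decide +kernel

/-- the parameters for `m = 26` -/
def parB26 : ParQ :=
  ⟨26, 1717 / 10000, 859 / 5000, 4911 / 10000, 1 / 50, 0, 9 / 50, 1 / 20000, 1 / 20000, 1003 / 5000, 1917 / 100000, -1, -1⟩

/-- the law for `m = 26` -/
def lawsB26 : List LawQ :=
  [⟨69 / 100, 1953 / 1000, 448 / 5535, 1169 / 10000, 13 / 5000, 1 / 20000, 1, 1⟩]

/-- the boxes of the mean normal law -/
def elsB26 : List (ElQ × ℚ × ℚ) := [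
  (⟨14 / 125, 23 / 4000, 3911 / 1250, 2197 / 2500⟩, 2661 / 1250, 553 / 25000)]

/-- the cells -/
def colsB26 : List ColQ := [
  ⟨14 / 125, [
    ⟨23 / 4000, 2661 / 1250, 51 / 12500, 1 / 50, 0, 0, true⟩,
    ⟨37 / 5000, 2661 / 1250, 463 / 100000, 1 / 50, 0, 0, false⟩,
    ⟨1083 / 50000, 2661 / 1250, 99 / 12500, 1 / 50, 0, 0, false⟩]⟩,
  ⟨201 / 1000, [
    ⟨2407 / 100000, 14181 / 5000, 167 / 20000, 1 / 50, 0, 0, false⟩]⟩]

theorem okB26 : nearOK parB26 lawsB26 (elsB26.map Prod.fst) colsB26 = true := by decide +kernel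

theorem elB26 : e7All 26 elsB26 = true := by decide +kernel

/-- the parameters for `m = 27` -/
def parB27 : ParQ :=
  ⟨27, 853 / 5000, 1707 / 10000, 613 / 1250, 1 / 50, 7 / 393660, 9 / 50, 1 / 20000, 1 / 20000, 199 / 1000, 2127 / 100000, 7 / 250, 27 / 50000⟩

/-- the law for `m = 27` -/
def lawsB27 : List LawQ :=
  [⟨713 / 1000, 1033 / 500, 29 / 371, 1221 / 10000, 19 / 5000, 1 / 20000, 1, 1⟩]

/-- the boxes of the mean normal law -/
def elsB27 : List (ElQ × ℚ × ℚ) := [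
  (⟨7 / 250, 33 / 10000, 5887 / 2500, 9259 / 10000⟩, 3387 / 2500, 539 / 100000),
  (⟨7 / 250, 549 / 25000, 5887 / 2500, 8819 / 10000⟩, 3387 / 2500, 539 / 100000),
  (⟨11 / 100, 23 / 4000, 31411 / 10000, 1103 / 1250⟩, 21411 / 10000, 2131 / 100000)]

/-- the cells -/
def colsB27 : List ColQ := [
  ⟨7 / 250, [
    ⟨33 / 10000, 3387 / 2500, 299 / 100000, 21 / 2500, 0, 0, true⟩,
    ⟨549 / 25000, 3387 / 2500, 77 / 10000, 1 / 50, 0, 1, true⟩]⟩,
  ⟨11 / 100, [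
    ⟨23 / 4000, 21411 / 10000, 197 / 50000, 1 / 50, 0, 2, true⟩,
    ⟨37 / 5000, 21411 / 10000, 447 / 100000, 1 / 50, 0, 0, false⟩,
    ⟨1199 / 50000, 21411 / 10000, 201 / 25000, 1 / 50, 0, 0, false⟩]⟩,
  ⟨1 / 5, [
    ⟨2667 / 100000, 28723 / 10000, 53 / 6250, 1 / 50, 0, 0, false⟩]⟩]

theorem okB27 : nearOK parB27 lawsB27 (elsB27.map Prod.fst) colsB27 = true := by decide +kernel

theorem elB27 : e7All 27 elsB27 = true := by decide +kernel

/-- the parameters for `m = 28` -/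
def parB28 : ParQ :=
  ⟨28, 847 / 5000, 339 / 2000, 4897 / 10000, 1 / 50, 0, 9 / 50, 1 / 20000, 1 / 20000, 973 / 5000, 2049 / 100000, -1, -1⟩

/-- the law for `m = 28` -/
def lawsB28 : List LawQ :=
  [⟨147 / 200, 2183 / 1000, 160 / 2117, 1277 / 10000, 13 / 2500, 1 / 20000, 1, 1⟩]

/-- the boxes of the mean normal law -/
def elsB28 : List (ElQ × ℚ × ℚ) := [
  (⟨49 / 500, 117 / 20000, 30639 / 10000, 8921 / 10000⟩, 20639 / 10000, 931 / 50000)]

/-- the cells -/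
def colsB28 : List ColQ := [
  ⟨49 / 500, [
    ⟨117 / 20000, 20639 / 10000, 12 / 3125, 1 / 50, 0, 0, true⟩,
    ⟨31 / 5000, 20639 / 10000, 99 / 25000, 1 / 50, 0, 0, false⟩,
    ⟨43 / 4000, 20639 / 10000, 521 / 100000, 1 / 50, 0, 0, false⟩,
    ⟨2279 / 100000, 20639 / 10000, 379 / 50000, 1 / 50, 0, 0, false⟩]⟩,
  ⟨39 / 200, [
    ⟨83 / 5000, 28753 / 10000, 647 / 100000, 1 / 50, 0, 0, false⟩,
    ⟨2553 / 100000, 28753 / 10000, 401 / 50000, 1 / 50, 0, 0, false⟩]⟩]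

theorem okB28 : nearOK parB28 lawsB28 (elsB28.map Prod.fst) colsB28 = true := by decide +kernel

theorem elB28 : e7All 28 elsB28 = true := by decide +kernel

end Vale.Agent.P224.R2.H179
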