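import Vale.Agent.P224.R2.H728.Nd

/-!
The near law for single dimensions, mean normal at most 1/50: parameters, cells and the kernel
check.
-/

namespace Vale.Agent.P224.R2.H179

open Vale.Agent.P224.R2.H728

set_option maxRecDepth 100000

/-- the parameters for `m = 29` -/
def parB29 : ParQ :=
  ⟨29, 841 / 5000, 1683 / 10000, 489 / 1000, 1 / 50, 7 / 487780, 9 / 50, 1 / 20000, 1 / 20000, 1933 / 10000, 2239 / 100000, 13 / 500, 47 / 100000⟩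

/-- the law for `m = 29` -/
def lawsB29 : List LawQ :=
  [⟨757 / 1000, 2303 / 1000, 124 / 1695, 667 / 5000, 7 / 1000, 1 / 20000, 1, 1⟩]

/-- the boxes of the mean normal law -/
def elsB29 : List (ElQ × ℚ × ℚ) := [
  (⟨13 / 500, 61 / 20000, 23519 / 10000, 9307 / 10000⟩, 13519 / 10000, 483 / 100000),
  (⟨13 / 500, 2307 / 100000, 23519 / 10000, 4419 / 5000⟩, 13519 / 10000, 483 / 100000),
  (⟨23 / 250, 3 / 500, 607 / 200, 2243 / 2500⟩, 407 / 200, 429 / 25000),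
  (⟨97 / 500, 13 / 5000, 39089 / 10000, 8171 / 10000⟩, 29089 / 10000, 737 / 20000)]

/-- the cells -/
def colsB29 : List ColQ := [
  ⟨13 / 500, [
    ⟨61 / 20000, 13519 / 10000, 269 / 100000, 771 / 100000, 0, 0, true⟩,
    ⟨2307 / 100000, 13519 / 10000, 369 / 50000, 1 / 50, 0, 1, true⟩]⟩,
  ⟨23 / 250, [
    ⟨3 / 500, 407 / 200, 377 / 100000, 1 / 50, 0, 2, true⟩,
    ⟨143 / 20000, 407 / 200, 411 / 100000, 1 / 50, 0, 0, false⟩,
    ⟨27 / 1250, 407 / 200, 357 / 50000, 1 / 50, 0, 0, false⟩,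
    ⟨1237 / 50000, 407 / 200, 153 / 20000, 1 / 50, 0, 0, false⟩]⟩,
  ⟨97 / 500, [
    ⟨13 / 5000, 29089 / 10000, 31 / 12500, 311 / 25000, 0, 3, true⟩,
    ⟨451 / 20000, 29089 / 10000, 73 / 10000, 1 / 50, 0, 0, false⟩,
    ⟨1393 / 50000, 29089 / 10000, 811 / 100000, 1 / 50, 0, 0, false⟩]⟩]

theorem okB29 : nearOK parB29 lawsB29 (elsB29.map Prod.fst) colsB29 = true := by decide +kernel

theorem elB29 : e7All 29 elsB29 = true := by decide +kernel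

/-- the parameters for `m = 30` -/
def parB30 : ParQ :=
  ⟨30, 1671 / 10000, 209 / 1250, 1221 / 2500, 1 / 50, 0, 9 / 50, 1 / 20000, 1 / 20000, 237 / 1250, 2181 / 100000, -1, -1⟩

/-- the law for `m = 30` -/
def lawsB30 : List LawQ :=
  [⟨779 / 1000, 303 / 125, 512 / 7223, 1391 / 10000, 19 / 2000, 1 / 20000, 1, 1⟩]

/-- the boxes of the mean normal law -/
def elsB30 : List (ElQ × ℚ × ℚ) := [
  (⟨39 / 500, 61 / 10000, 14627 / 5000, 9063 / 10000⟩, 9627 / 5000, 1429 / 100000),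
  (⟨19 / 100, 107 / 20000, 19583 / 5000, 8143 / 10000⟩, 14583 / 5000, 1773 / 50000)]

/-- the cells -/
def colsB30 : List ColQ := [
  ⟨39 / 500, [
    ⟨61 / 10000, 9627 / 5000, 23 / 6250, 1969 / 100000, 0, 0, true⟩,
    ⟨27 / 4000, 9627 / 5000, 387 / 100000, 1 / 50, 0, 0, false⟩,
    ⟨349 / 20000, 9627 / 5000, 311 / 50000, 1 / 50, 0, 0, false⟩,
    ⟨2373 / 100000, 9627 / 5000, 363 / 50000, 1 / 50, 0, 0, false⟩]⟩,
  ⟨19 / 100, [
    ⟨107 / 20000, 14583 / 5000, 69 / 20000, 1 / 50, 0, 1, true⟩,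
    ⟨499 / 20000, 14583 / 5000, 93 / 12500, 1 / 50, 0, 0, false⟩,
    ⟨2701 / 100000, 14583 / 5000, 387 / 50000, 1 / 50, 0, 0, false⟩]⟩]

theorem okB30 : nearOK parB30 lawsB30 (elsB30.map Prod.fst) colsB30 = true := by decide +kernel

theorem elB30 : e7All 30 elsB30 = true := by decide +kernel

/-- the parameters for `m = 31` -/
def parB31 : ParQ :=
  ⟨31, 1659 / 10000, 83 / 500, 4879 / 10000, 1 / 50, 7 / 595820, 9 / 50, 1 / 20000, 1 / 20000, 471 / 2500, 471 / 20000, 1 / 40, 11 / 25000⟩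

/-- the law for `m = 31` -/
def lawsB31 : List LawQ :=
  [⟨4 / 5, 2547 / 1000, 11 / 160, 1449 / 10000, 3 / 250, 1 / 20000, 1, 1⟩]

/-- the boxes of the mean normal law -/
def elsB31 : List (ElQ × ℚ × ℚ) := [
  (⟨1 / 40, 13 / 5000, 5897 / 2500, 1169 / 1250⟩, 3397 / 2500, 449 / 100000),
  (⟨1 / 40, 363 / 20000, 5897 / 2500, 8993 / 10000⟩, 3397 / 2500, 9 / 2000),
  (⟨37 / 500, 119 / 20000, 1817 / 625, 569 / 625⟩, 1192 / 625, 1333 / 100000),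
  (⟨189 / 1000, 11 / 2500, 987 / 250, 8209 / 10000⟩, 737 / 250, 3469 / 100000)]

/-- the cells -/
def colsB31 : List ColQ := [
  ⟨1 / 40, [
    ⟨13 / 5000, 3397 / 2500, 233 / 100000, 41 / 6250, 0, 0, true⟩,
    ⟨363 / 20000, 3397 / 2500, 123 / 20000, 1 / 50, 0, 1, true⟩,
    ⟨2423 / 100000, 3397 / 2500, 711 / 100000, 1 / 50, 0, 0, false⟩]⟩,
  ⟨37 / 500, [
    ⟨119 / 20000, 1192 / 625, 353 / 100000, 1901 / 100000, 0, 2, true⟩,
    ⟨67 / 10000, 1192 / 625, 187 / 50000, 1 / 50, 0, 0, false⟩,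
    ⟨12 / 625, 1192 / 625, 633 / 100000, 1 / 50, 0, 0, false⟩,
    ⟨2551 / 100000, 1192 / 625, 73 / 10000, 1 / 50, 0, 0, false⟩]⟩,
  ⟨189 / 1000, [
    ⟨11 / 2500, 737 / 250, 303 / 100000, 1 / 50, 0, 3, true⟩,
    ⟨163 / 20000, 737 / 250, 413 / 100000, 1 / 50, 0, 0, false⟩,
    ⟨91 / 3125, 737 / 250, 779 / 100000, 1 / 50, 0, 0, false⟩]⟩]

theorem okB31 : nearOK parB31 lawsB31 (elsB31.map Prod.fst) colsB31 = true := by decide +kernel

theorem elB31 : e7All 31 elsB31 = true := by decide +kernel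

/-- the parameters for `m = 32` -/
def parB32 : ParQ :=
  ⟨32, 1647 / 10000, 103 / 625, 4873 / 10000, 1 / 50, 0, 9 / 50, 1 / 20000, 1 / 20000, 463 / 2500, 1157 / 50000, -1, -1⟩

/-- the law for `m = 32` -/
def lawsB32 : List LawQ :=
  [⟨411 / 500, 334 / 125, 544 / 8151, 1509 / 10000, 31 / 2000, 1 / 20000, 1, 1⟩]

/-- the boxes of the mean normal law -/
def elsB32 : List (ElQ × ℚ × ℚ) := [
  (⟨61 / 1000, 59 / 10000, 27913 / 10000, 4589 / 5000⟩, 17913 / 10000, 1081 / 100000),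
  (⟨149 / 1000, 91 / 20000, 36369 / 10000, 4323 / 5000⟩, 26369 / 10000, 667 / 25000)]

/-- the cells -/
def colsB32 : List ColQ := [
  ⟨61 / 1000, [
    ⟨59 / 10000, 17913 / 10000, 341 / 100000, 359 / 20000, 0, 0, true⟩,
    ⟨4 / 625, 17913 / 10000, 71 / 20000, 1 / 50, 0, 0, false⟩,
    ⟨31 / 2000, 17913 / 10000, 69 / 12500, 1 / 50, 0, 0, false⟩,
    ⟨309 / 12500, 17913 / 10000, 697 / 100000, 1 / 50, 0, 0, false⟩]⟩,
  ⟨149 / 1000, [
    ⟨91 / 20000, 26369 / 10000, 299 / 100000, 957 / 50000, 0, 1, true⟩,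
    ⟨13 / 2500, 26369 / 10000, 2 / 625, 1 / 50, 0, 0, false⟩,
    ⟨123 / 10000, 26369 / 10000, 123 / 25000, 1 / 50, 0, 0, false⟩,
    ⟨2727 / 100000, 26369 / 10000, 183 / 25000, 1 / 50, 0, 0, false⟩]⟩,
  ⟨93 / 500, [
    ⟨2851 / 100000, 29613 / 10000, 749 / 100000, 1 / 50, 0, 0, false⟩]⟩]

theorem okB32 : nearOK parB32 lawsB32 (elsB32.map Prod.fst) colsB32 = true := by decide +kernel

theorem elB32 : e7All 32 elsB32 = true := by decide +kernel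

/-- the parameters for `m = 33` -/
def parB33 : ParQ :=
  ⟨33, 409 / 2500, 1637 / 10000, 1217 / 2500, 1 / 50, 7 / 718740, 9 / 50, 1 / 20000, 1 / 20000, 1843 / 10000, 1237 / 50000, 23 / 1000, 23 / 50000⟩

/-- the law for `m = 33` -/
def lawsB33 : List LawQ :=
  [⟨421 / 500, 1399 / 500, 140 / 2159, 1567 / 10000, 19 / 1000, 1 / 20000, 1, 1⟩]

/-- the boxes of the mean normal law -/
def elsB33 : List (ElQ × ℚ × ℚ) := [
  (⟨23 / 1000, 43 / 20000, 11753 / 5000, 2349 / 2500⟩, 6753 / 5000, 401 / 100000),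
  (⟨23 / 1000, 69 / 10000, 11753 / 5000, 929 / 1000⟩, 6753 / 5000, 401 / 100000),
  (⟨53 / 1000, 23 / 4000, 13601 / 5000, 2307 / 2500⟩, 8601 / 5000, 231 / 25000),
  (⟨13 / 125, 99 / 20000, 13 / 4, 8997 / 10000⟩, 9 / 4, 911 / 50000)]

/-- the cells -/
def colsB33 : List ColQ := [
  ⟨23 / 1000, [
    ⟨43 / 20000, 6753 / 5000, 1 / 500, 269 / 50000, 0, 0, true⟩,
    ⟨69 / 10000, 6753 / 5000, 179 / 50000, 873 / 50000, 0, 1, true⟩,
    ⟨127 / 5000, 6753 / 5000, 343 / 50000, 1 / 50, 0, 0, false⟩]⟩,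
  ⟨53 / 1000, [
    ⟨23 / 4000, 8601 / 5000, 327 / 100000, 339 / 20000, 0, 2, true⟩,
    ⟨129 / 20000, 8601 / 5000, 173 / 50000, 1 / 50, 0, 0, false⟩,
    ⟨393 / 20000, 8601 / 5000, 151 / 25000, 1 / 50, 0, 0, false⟩,
    ⟨2621 / 100000, 8601 / 5000, 697 / 100000, 1 / 50, 0, 0, false⟩]⟩,
  ⟨13 / 125, [
    ⟨99 / 20000, 9 / 4, 303 / 100000, 1789 / 100000, 0, 3, true⟩,
    ⟨57 / 10000, 9 / 4, 13 / 4000, 1 / 50, 0, 0, false⟩,
    ⟨163 / 10000, 9 / 4, 11 / 2000, 1 / 50, 0, 0, false⟩,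
    ⟨2769 / 100000, 9 / 4, 717 / 100000, 1 / 50, 0, 0, false⟩]⟩,
  ⟨37 / 200, [
    ⟨307 / 20000, 7477 / 2500, 267 / 50000, 1 / 50, 0, 0, false⟩,
    ⟨761 / 25000, 7477 / 2500, 751 / 100000, 1 / 50, 0, 0, false⟩]⟩]

theorem okB33 : nearOK parB33 lawsB33 (elsB33.map Prod.fst) colsB33 = true := by decide +kernel

theorem elB33 : e7All 33 elsB33 = true := by decide +kernel

/-- the parameters for `m = 34` -/
def parB34 : ParQ :=
  ⟨34, 203 / 1250, 13 / 80, 304 / 625, 1 / 50, 0, 9 / 50, 1 / 20000, 1 / 20000, 907 / 5000, 1223 / 50000, -1, -1⟩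

/-- the law for `m = 34` -/
def lawsB34 : List LawQ :=
  [⟨89 / 100, 2871 / 1000, 64 / 1015, 157 / 1000, 11 / 500, 1 / 20000, 1, 1⟩]

/-- the boxes of the mean normal law -/
def elsB34 : List (ElQ × ℚ × ℚ) := [
  (⟨47 / 1000, 7 / 1250, 1333 / 500, 9267 / 10000⟩, 833 / 500, 807 / 100000),
  (⟨12 / 125, 97 / 20000, 15981 / 5000, 9063 / 10000⟩, 10981 / 5000, 331 / 20000),
  (⟨91 / 500, 57 / 10000, 40017 / 10000, 8299 / 10000⟩, 30017 / 10000, 637 / 20000)]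

/-- the cells -/
def colsB34 : List ColQ := [
  ⟨47 / 1000, [
    ⟨7 / 1250, 833 / 500, 157 / 50000, 403 / 25000, 0, 0, true⟩,
    ⟨131 / 20000, 833 / 500, 339 / 100000, 1 / 50, 0, 0, false⟩,
    ⟨103 / 4000, 833 / 500, 21 / 3125, 1 / 50, 0, 0, false⟩]⟩,
  ⟨12 / 125, [
    ⟨97 / 20000, 10981 / 5000, 73 / 25000, 1711 / 100000, 0, 1, true⟩,
    ⟨109 / 20000, 10981 / 5000, 309 / 100000, 1 / 50, 0, 0, false⟩,
    ⟨149 / 10000, 10981 / 5000, 511 / 100000, 1 / 50, 0, 0, false⟩,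
    ⟨1357 / 50000, 10981 / 5000, 69 / 10000, 1 / 50, 0, 0, false⟩]⟩,
  ⟨91 / 500, [
    ⟨57 / 10000, 30017 / 10000, 79 / 25000, 1 / 50, 0, 2, true⟩,
    ⟨2999 / 100000, 30017 / 10000, 29 / 4000, 1 / 50, 0, 0, false⟩]⟩]

theorem okB34 : nearOK parB34 lawsB34 (elsB34.map Prod.fst) colsB34 = true := by decide +kernel

theorem elB34 : e7All 34 elsB34 = true := by decide +kernel

end Vale.Agent.P224.R2.H179
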